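import Mathlib

/-!
# R114 / HJ / Rad (helper935): finite Rademacher averages, indexed by numbers `s < 2^n`
-/

set_option autoImplicit false

namespace Crest.Agent.R114.HJ

open Finset

/-- `i`-th Rademacher function at `s` -/
noncomputable def rad (i s : ℕ) : ℝ := if s.testBit i then -1 else 1



theorem rad_low {n s : ℕ} (h : s < 2 ^ n) : rad n s = 1 := by
  unfold rad
  rw [Nat.testBit_lt_two_pow h]
  simp

theorem rad_high {n s : ℕ} (h : s < 2 ^ n) : rad n (2 ^ n + s) = -1 := by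
  unfold rad
  rw [Nat.testBit_two_pow_add_eq, Nat.testBit_lt_two_pow h]
  simp

theorem rad_add {i n : ℕ} (h : i < n) (s : ℕ) : rad i (2 ^ n + s) = rad i s := by
  unfold rad
  rw [Nat.testBit_two_pow_add_gt h]

section avg
variable {E : Type*} [AddCommGroup E] [Module ℝ E]

/-- average over `s < 2^n` -/
noncomputable def av (n : ℕ) (f : ℕ → E) : E := ((2 : ℝ) ^ n)⁻¹ • ∑ s ∈ range (2 ^ n), f s

theorem av_succ (n : ℕ) (f : ℕ → E) :
    av (n + 1) f = (1 / 2 : ℝ) • (av n f + av n (fun s => f (2 ^ n + s))) := by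
  unfold av
  have e : (2 : ℕ) ^ (n + 1) = 2 ^ n + 2 ^ n := by ring
  rw [e, sum_range_add, ← smul_add, smul_smul]
  congr 1
  rw [pow_succ, mul_inv]; ring

theorem av_zero (f : ℕ → E) : av 0 f = f 0 := by
  unfold av; simp

theorem av_add (n : ℕ) (f g : ℕ → E) : av n (fun s => f s + g s) = av n f + av n g := by
  unfold av; rw [sum_add_distrib, smul_add]

theorem av_sub (n : ℕ) (f g : ℕ → E) : av n (fun s => f s - g s) = av n f - av n g := by
  unfold av; rw [sum_sub_distrib, smul_sub]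

theorem av_congr {n : ℕ} {f g : ℕ → E} (h : ∀ s < 2 ^ n, f s = g s) : av n f = av n g := by
  unfold av; rw [sum_congr rfl fun s hs => h s (mem_range.1 hs)]

theorem av_const (n : ℕ) (c : E) : av n (fun _ => c) = c := by
  unfold av
  rw [sum_const, card_range, ← Nat.cast_smul_eq_nsmul ℝ, smul_smul]
  push_cast
  rw [inv_mul_cancel₀ (by positivity), one_smul]

theorem av_sum {ι : Type*} (A : Finset ι) (n : ℕ) (f : ι → ℕ → E) :
    av n (fun s => ∑ i ∈ A, f i s) = ∑ i ∈ A, av n (f i) := by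
  unfold av; rw [sum_comm, smul_sum]

/-- the average stabilises for functions of the first `m` bits -/
theorem av_stable {f : ℕ → E} {m n : ℕ} (hf : ∀ k, m ≤ k → ∀ s, f (2 ^ k + s) = f s)
    (hmn : m ≤ n) : av n f = av m f := by
  induction n, hmn using Nat.le_induction with
  | base => rfl
  | succ n hmn ih =>
    rw [av_succ]
    have : (fun s => f (2 ^ n + s)) = f := funext fun s => hf n hmn s
    rw [this, ih, ← two_smul ℝ, smul_smul]
    norm_num

end avg

theorem av_mono {n : ℕ} {f g : ℕ → ℝ} (h : ∀ s < 2 ^ n, f s ≤ g s) : av n f ≤ av n g := by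
  unfold av
  rw [smul_eq_mul, smul_eq_mul]
  exact mul_le_mul_of_nonneg_left (sum_le_sum fun s hs => h s (mem_range.1 hs)) (by positivity)

theorem av_nonneg {n : ℕ} {f : ℕ → ℝ} (h : ∀ s < 2 ^ n, 0 ≤ f s) : 0 ≤ av n f := by
  have := av_mono (n := n) (f := fun _ => 0) (g := f) h
  rwa [av_const] at this

theorem av_const_mul (n : ℕ) (c : ℝ) (f : ℕ → ℝ) : av n (fun s => c * f s) = c * av n f := by
  unfold av; rw [← mul_sum, smul_eq_mul, smul_eq_mul]; ring

section norm
variable {E : Type*} [NormedAddCommGroup E] [NormedSpace ℝ E]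

theorem norm_av_le (n : ℕ) (f : ℕ → E) : ‖av n f‖ ≤ av n (fun s => ‖f s‖) := by
  unfold av
  rw [norm_smul, smul_eq_mul, Real.norm_of_nonneg (by positivity)]
  exact mul_le_mul_of_nonneg_left (norm_sum_le _ _) (by positivity)

theorem sq_av_le (n : ℕ) (f : ℕ → ℝ) : av n f ^ 2 ≤ av n (fun s => f s ^ 2) := by
  have h : 0 ≤ av n (fun s => (f s - av n f) ^ 2) := av_nonneg fun s _ => sq_nonneg _
  have h2 : av n (fun s => (f s - av n f) ^ 2) = av n (fun s => f s ^ 2) - av n f ^ 2 := by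
    have : (fun s => (f s - av n f) ^ 2) =
        fun s => (f s ^ 2 - (2 * av n f) * f s) + av n f ^ 2 := by
      funext s; ring
    rw [this, av_add, av_sub, av_const_mul, av_const]
    ring
  linarith

theorem sq_norm_av_le (n : ℕ) (f : ℕ → E) : ‖av n f‖ ^ 2 ≤ av n (fun s => ‖f s‖ ^ 2) := by
  calc ‖av n f‖ ^ 2 ≤ av n (fun s => ‖f s‖) ^ 2 := by gcongr; exact norm_av_le n f
    _ ≤ _ := sq_av_le n _

end norm

/-! ### Bessel's inequality -/

section Bessel
variable {H : Type*} [NormedAddCommGroup H] [InnerProductSpace ℝ H]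

theorem bessel (n : ℕ) (v : ℕ → H) :
    ∑ i ∈ range n, ‖av n (fun s => rad i s • v s)‖ ^ 2 ≤ av n (fun s => ‖v s‖ ^ 2) := by
  induction n generalizing v with
  | zero => simp [av_zero]
  | succ n ih =>
    set w : ℕ → H := fun s => (1 / 2 : ℝ) • (v s + v (2 ^ n + s)) with hw
    set z : ℕ → H := fun s => (1 / 2 : ℝ) • (v s - v (2 ^ n + s)) with hz
    have h1 : ∀ i ∈ range n, av (n + 1) (fun s => rad i s • v s) = av n (fun s => rad i s • w s) := by
      intro i hi
      rw [av_succ, ← av_add]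
      unfold av
      rw [smul_comm, smul_sum]
      congr 1
      refine sum_congr rfl fun s _ => ?_
      rw [rad_add (mem_range.1 hi), hw, ← smul_add, smul_comm]
    have h2 : av (n + 1) (fun s => rad n s • v s) = av n z := by
      rw [av_succ, ← av_add]
      unfold av
      rw [smul_comm, smul_sum]
      congr 1
      refine sum_congr rfl fun s hs => ?_
      rw [rad_low (mem_range.1 hs), rad_high (mem_range.1 hs), one_smul, neg_one_smul,
        ← sub_eq_add_neg]
    rw [sum_range_succ, sum_congr rfl fun i hi => by rw [h1 i hi], h2]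
    have h3 := ih w
    have h4 := sq_norm_av_le n z
    have h5 : av n (fun s => ‖w s‖ ^ 2) + av n (fun s => ‖z s‖ ^ 2) =
        av (n + 1) (fun s => ‖v s‖ ^ 2) := by
      rw [av_succ, ← av_add, ← av_add, smul_eq_mul, ← av_const_mul]
      refine av_congr fun s _ => ?_
      rw [hw, hz]
      simp only [norm_smul, mul_pow]
      have := parallelogram_law_with_norm ℝ (v s) (v (2 ^ n + s))
      have e : ‖(1 / 2 : ℝ)‖ = 1 / 2 := by norm_num
      rw [e]
      nlinarith
    linarith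

end Bessel

/-! ### Khintchine -/

/-- the Rademacher sum -/
noncomputable def rsum (m : ℕ) (a : ℕ → ℝ) (s : ℕ) : ℝ := ∑ i ∈ range m, a i * rad i s

theorem rsum_add {m k : ℕ} (h : m ≤ k) (a : ℕ → ℝ) (s : ℕ) :
    rsum m a (2 ^ k + s) = rsum m a s := by
  unfold rsum
  exact sum_congr rfl fun i hi => by rw [rad_add (lt_of_lt_of_le (mem_range.1 hi) h)]

theorem av_rsum_sq (m : ℕ) (a : ℕ → ℝ) :
    av m (fun s => rsum m a s ^ 2) = ∑ i ∈ range m, a i ^ 2 := by
  induction m with
  | zero => simp [av_zero, rsum]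
  | succ m ih =>
    rw [av_succ, ← av_add, sum_range_succ, ← ih, smul_eq_mul, ← av_const_mul, ← av_const m (a m ^ 2),
      ← av_add]
    refine av_congr fun s hs => ?_
    have e1 : rsum (m + 1) a s = rsum m a s + a m := by
      unfold rsum; rw [sum_range_succ, rad_low hs, mul_one]
    have e2 : rsum (m + 1) a (2 ^ m + s) = rsum m a s - a m := by
      have := rsum_add (le_refl m) a s
      unfold rsum at this ⊢
      rw [sum_range_succ, this, rad_high hs]; ring
    rw [e1, e2]; ring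

theorem av_rsum_four (m : ℕ) (a : ℕ → ℝ) :
    av m (fun s => rsum m a s ^ 4) ≤ 3 * (∑ i ∈ range m, a i ^ 2) ^ 2 := by
  induction m with
  | zero => simp [av_zero, rsum]
  | succ m ih =>
    have h1 : av (m + 1) (fun s => rsum (m + 1) a s ^ 4) =
        av m (fun s => rsum m a s ^ 4) + 6 * a m ^ 2 * av m (fun s => rsum m a s ^ 2) + a m ^ 4 := by
      rw [av_succ, ← av_add, smul_eq_mul, ← av_const_mul, ← av_const_mul,
        ← av_add]
      conv_rhs => rw [← av_const m (a m ^ 4)]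
      rw [← av_add]
      refine av_congr fun s hs => ?_
      have e1 : rsum (m + 1) a s = rsum m a s + a m := by
        unfold rsum; rw [sum_range_succ, rad_low hs, mul_one]
      have e2 : rsum (m + 1) a (2 ^ m + s) = rsum m a s - a m := by
        have := rsum_add (le_refl m) a s
        unfold rsum at this ⊢
        rw [sum_range_succ, this, rad_high hs]; ring
      rw [e1, e2]; ring
    rw [h1, av_rsum_sq, sum_range_succ]
    have hs0 : 0 ≤ ∑ i ∈ range m, a i ^ 2 := sum_nonneg fun i _ => sq_nonneg _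
    nlinarith [sq_nonneg (a m), mul_nonneg hs0 (sq_nonneg (a m)), sq_nonneg (a m ^ 2)]

theorem abs_ge_aux (t : ℝ) {σ : ℝ} (hσ : 0 < σ) : t ^ 2 / σ - 4 / 27 * (t ^ 4 / σ ^ 3) ≤ |t| := by
  set u : ℝ := |t| / σ with hu
  have hu0 : 0 ≤ u := by positivity
  have ht : |t| = u * σ := by rw [hu]; field_simp
  have h1 : t ^ 2 = (u * σ) ^ 2 := by rw [← ht, sq_abs]
  have h2 : t ^ 4 = (u * σ) ^ 4 := by
    have : t ^ 4 = (t ^ 2) ^ 2 := by ring
    rw [this, h1]; ring
  have h3 : t ^ 2 / σ = u ^ 2 * σ := by rw [h1]; field_simp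
  have h4 : t ^ 4 / σ ^ 3 = u ^ 4 * σ := by rw [h2]; field_simp
  rw [h3, h4, ht]
  have h5 : 0 ≤ u * ((u - 3 / 2) ^ 2 * (u + 3)) := by positivity
  nlinarith

/-- Khintchine's inequality (constant `5/9`) -/
theorem khintchine {m n : ℕ} (hmn : m ≤ n) (a : ℕ → ℝ) :
    5 / 9 * √(∑ i ∈ range m, a i ^ 2) ≤ av n (fun s => |rsum m a s|) := by
  have hs0 : 0 ≤ ∑ i ∈ range m, a i ^ 2 := sum_nonneg fun i _ => sq_nonneg _
  have hstab : av n (fun s => |rsum m a s|) = av m (fun s => |rsum m a s|) :=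
    av_stable (fun k hk s => by simp only [rsum_add hk]) hmn
  rw [hstab]
  rcases eq_or_lt_of_le hs0 with h0 | hpos
  · rw [← h0, Real.sqrt_zero, mul_zero]
    exact av_nonneg fun s _ => abs_nonneg _
  · set σ : ℝ := √(∑ i ∈ range m, a i ^ 2) with hσ
    have hσ0 : 0 < σ := Real.sqrt_pos.2 hpos
    have hσ2 : ∑ i ∈ range m, a i ^ 2 = σ ^ 2 := (Real.sq_sqrt hs0).symm
    have h1 : av m (fun s => rsum m a s ^ 2 / σ - 4 / 27 * (rsum m a s ^ 4 / σ ^ 3)) ≤
        av m (fun s => |rsum m a s|) := av_mono fun s _ => abs_ge_aux _ hσ0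
    have h2 : av m (fun s => rsum m a s ^ 2 / σ - 4 / 27 * (rsum m a s ^ 4 / σ ^ 3)) =
        σ⁻¹ * av m (fun s => rsum m a s ^ 2) -
          (4 / 27 * (σ ^ 3)⁻¹) * av m (fun s => rsum m a s ^ 4) := by
      rw [← av_const_mul, ← av_const_mul, ← av_sub]
      refine av_congr fun s _ => ?_
      field_simp
    have h3 := av_rsum_four m a
    rw [h2, av_rsum_sq, hσ2] at h1
    rw [hσ2] at h3
    have h4 : (4 / 27 * (σ ^ 3)⁻¹) * av m (fun s => rsum m a s ^ 4) ≤ 4 / 9 * σ := by
      calc (4 / 27 * (σ ^ 3)⁻¹) * av m (fun s => rsum m a s ^ 4)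
          ≤ (4 / 27 * (σ ^ 3)⁻¹) * (3 * (σ ^ 2) ^ 2) := by gcongr
        _ = 4 / 9 * σ := by field_simp; norm_num
    have h5 : σ⁻¹ * σ ^ 2 = σ := by field_simp
    linarith

/-! ### coding sign patterns by numbers -/

theorem exists_code (N : ℕ) (P : ℕ → Bool) : ∃ c : ℕ, ∀ s < N, c.testBit s = P s := by
  induction N generalizing P with
  | zero => exact ⟨0, fun s hs => absurd hs (Nat.not_lt_zero _)⟩
  | succ N ih =>
    obtain ⟨c, hc⟩ := ih (fun s => P (s + 1))
    refine ⟨Nat.bit (P 0) c, fun s hs => ?_⟩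
    rcases s with _ | s
    · exact Nat.testBit_bit_zero _ _
    · rw [Nat.testBit_bit_succ]; exact hc s (by omega)

/-- the sign function number `c` of the first `m` bits -/
noncomputable def sgc (m c s : ℕ) : ℝ := if c.testBit (s % 2 ^ m) then -1 else 1

theorem sgc_add {m k : ℕ} (h : m ≤ k) (c s : ℕ) : sgc m c (2 ^ k + s) = sgc m c s := by
  unfold sgc
  have : (2 ^ k + s) % 2 ^ m = s % 2 ^ m := by
    obtain ⟨d, rfl⟩ := Nat.exists_eq_add_of_le h
    rw [pow_add, Nat.mul_add_mod]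
  rw [this]

theorem abs_sgc (m c s : ℕ) : |sgc m c s| = 1 := by
  unfold sgc; split_ifs <;> norm_num

theorem exists_sgc (m : ℕ) (a : ℕ → ℝ) :
    ∃ c, ∀ s, sgc m c s * rsum m a s = |rsum m a s| := by
  classical
  obtain ⟨c, hc⟩ := exists_code (2 ^ m) (fun s => decide (rsum m a s < 0))
  refine ⟨c, fun s => ?_⟩
  have hmod : rsum m a (s % 2 ^ m) = rsum m a s := by
    unfold rsum
    refine sum_congr rfl fun i hi => ?_
    unfold rad
    rw [Nat.testBit_mod_two_pow]
    simp [mem_range.1 hi]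
  unfold sgc
  rw [hc _ (Nat.mod_lt _ (by positivity)), hmod]
  by_cases h : rsum m a s < 0
  · simp [h, abs_of_neg h]
  · simp [h, abs_of_nonneg (not_lt.1 h)]

end Crest.Agent.R114.HJ
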