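import Mathlib
import Crest.Agent.R114.HJ.Rad
import Crest.Agent.R114.SepQuot
import Crest.Agent.R114.HJ.Surj
import Crest.Agent.R114.VDefs
import Crest.Agent.R114.VT5

-- ▼ part R114/HJ/Tree
section

/-!
# R114 / HJ / Tree (helper935): the tree of `2^n`-tuples for a stable sequence of functionals
-/

set_option autoImplicit false

namespace Crest.Agent.R114.HJ

open Filter Topology

section
variable {𝕜 : Type*} [RCLike 𝕜]

theorem re_av (n : ℕ) (f : ℕ → 𝕜) : RCLike.re (av n f) = av n (fun s => RCLike.re (f s)) := by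
  unfold av
  rw [RCLike.smul_re, map_sum, smul_eq_mul]

theorem av_smul_left (n : ℕ) (u : 𝕜) (f : ℕ → 𝕜) : av n (fun s => u * f s) = u * av n f := by
  unfold av
  rw [← Finset.mul_sum, mul_smul_comm]

theorem norm_sub_real_sq (a : 𝕜) {D F : ℝ} (hF : |F| = 1) :
    ‖a - ((D * F : ℝ) : 𝕜)‖ ^ 2 = ‖a‖ ^ 2 - 2 * D * (F * RCLike.re a) + D ^ 2 := by
  rw [RCLike.norm_sq_eq_def, RCLike.norm_sq_eq_def]
  simp only [map_sub, RCLike.ofReal_re, RCLike.ofReal_im, sub_zero]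
  have h2 : F ^ 2 = 1 := by rw [← sq_abs, hF, one_pow]
  have : (D * F) ^ 2 = D ^ 2 := by rw [mul_pow, h2, mul_one]
  nlinarith

/-- if the values are almost bounded by `D` and the signed average is almost `D` then the values
are close to `D F` in quadratic mean -/
theorem av_close {n : ℕ} {a : ℕ → 𝕜} {F : ℕ → ℝ} (hF : ∀ s, |F s| = 1) {D δ : ℝ} (hD : 0 < D)
    (_hδ : 0 ≤ δ) (ha : ∀ s < 2 ^ n, ‖a s‖ ≤ D + δ)
    (hre : D - δ ≤ RCLike.re (av n (fun s => F s • a s))) :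
    av n (fun s => ‖a s - ((D * F s : ℝ) : 𝕜)‖ ^ 2) ≤ 4 * D * δ + δ ^ 2 := by
  have h1 : (fun s => ‖a s - ((D * F s : ℝ) : 𝕜)‖ ^ 2) =
      fun s => (‖a s‖ ^ 2 - (2 * D) * (F s * RCLike.re (a s))) + D ^ 2 := by
    funext s; exact norm_sub_real_sq _ (hF s)
  rw [h1, av_add, av_sub, av_const_mul, av_const]
  have h2 : av n (fun s => ‖a s‖ ^ 2) ≤ (D + δ) ^ 2 := by
    calc av n (fun s => ‖a s‖ ^ 2) ≤ av n (fun _ => (D + δ) ^ 2) :=
          av_mono fun s hs => by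
            have := ha s hs
            gcongr
      _ = _ := av_const _ _
  rw [re_av] at hre
  have h3 : (fun s => RCLike.re (F s • a s)) = fun s => F s * RCLike.re (a s) := by
    funext s; rw [RCLike.smul_re]
  rw [h3] at hre
  nlinarith

end

/-- successive injective `2^n`-tuples -/
def Tup (n : ℕ) (T : ℕ → ℕ → ℕ) : Prop :=
  (∀ k, ∀ s < 2 ^ n, ∀ s' < 2 ^ n, T k s = T k s' → s = s') ∧
  ∀ k k', k < k' → ∀ s < 2 ^ n, ∀ s' < 2 ^ n, T k s < T k' s'

theorem Tup.le {n : ℕ} {T : ℕ → ℕ → ℕ} (h : Tup n T) : ∀ k, ∀ s < 2 ^ n, k ≤ T k s := by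
  intro k
  induction k with
  | zero => intro s _; exact Nat.zero_le _
  | succ k ih =>
    intro s hs
    exact lt_of_le_of_lt (ih s hs) (h.2 k (k + 1) (Nat.lt_succ_self k) s hs s hs)

/-- subsequences -/
theorem Tup.comp {n : ℕ} {T : ℕ → ℕ → ℕ} (h : Tup n T) {φ : ℕ → ℕ} (hφ : StrictMono φ) :
    Tup n (fun k => T (φ k)) :=
  ⟨fun k => h.1 (φ k), fun _ _ hk => h.2 _ _ (hφ hk)⟩

/-- pair consecutive tuples -/
def pairT (n : ℕ) (T : ℕ → ℕ → ℕ) (k s : ℕ) : ℕ :=
  if s < 2 ^ n then T (2 * k) s else T (2 * k + 1) (s - 2 ^ n)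

theorem pairT_low {n : ℕ} (T : ℕ → ℕ → ℕ) (k : ℕ) {s : ℕ} (hs : s < 2 ^ n) :
    pairT n T k s = T (2 * k) s := by
  unfold pairT; rw [if_pos hs]

theorem pairT_high {n : ℕ} (T : ℕ → ℕ → ℕ) (k s : ℕ) :
    pairT n T k (2 ^ n + s) = T (2 * k + 1) s := by
  unfold pairT; rw [if_neg (by omega), Nat.add_sub_cancel_left]

theorem Tup.pair {n : ℕ} {T : ℕ → ℕ → ℕ} (h : Tup n T) : Tup (n + 1) (pairT n T) := by
  have hp : 2 ^ (n + 1) = 2 ^ n + 2 ^ n := by ring
  constructor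
  · intro k s hs s' hs' he
    rcases lt_or_ge s (2 ^ n) with h1 | h1 <;> rcases lt_or_ge s' (2 ^ n) with h2 | h2
    · rw [pairT_low _ _ h1, pairT_low _ _ h2] at he
      exact h.1 _ s h1 s' h2 he
    · obtain ⟨t', rfl⟩ := Nat.exists_eq_add_of_le h2
      rw [pairT_low _ _ h1, pairT_high] at he
      have := h.2 (2 * k) (2 * k + 1) (by omega) s h1 t' (by omega)
      omega
    · obtain ⟨t, rfl⟩ := Nat.exists_eq_add_of_le h1
      rw [pairT_low _ _ h2, pairT_high] at he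
      have := h.2 (2 * k) (2 * k + 1) (by omega) s' h2 t (by omega)
      omega
    · obtain ⟨t, rfl⟩ := Nat.exists_eq_add_of_le h1
      obtain ⟨t', rfl⟩ := Nat.exists_eq_add_of_le h2
      rw [pairT_high, pairT_high] at he
      rw [h.1 _ t (by omega) t' (by omega) he]
  · intro k k' hk s hs s' hs'
    have hcase : ∀ s < 2 ^ (n + 1), ∃ i t, (i = 0 ∨ i = 1) ∧ t < 2 ^ n ∧
        ∀ k, pairT n T k s = T (2 * k + i) t := by
      intro s hs
      rcases lt_or_ge s (2 ^ n) with h1 | h1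
      · exact ⟨0, s, Or.inl rfl, h1, fun k => pairT_low _ _ h1⟩
      · obtain ⟨t, rfl⟩ := Nat.exists_eq_add_of_le h1
        exact ⟨1, t, Or.inr rfl, by omega, fun k => pairT_high _ _ _⟩
    obtain ⟨i, t, hi, ht, h1⟩ := hcase s hs
    obtain ⟨i', t', hi', ht', h2⟩ := hcase s' hs'
    rw [h1, h2]
    exact h.2 _ _ (by omega) t ht t' ht'

section tree
variable {𝕜 : Type*} [RCLike 𝕜] {X : Type*} [NormedAddCommGroup X] [NormedSpace 𝕜 X]

theorem step_point (d : ℕ → X →L[𝕜] 𝕜) {D : ℝ} (hD : 0 < D)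
    (hup : ∀ ε > 0, ∀ x : X, ‖x‖ ≤ 1 → ∀ᶠ k in atTop, ‖d k x‖ ≤ D + ε)
    {n : ℕ} {T : ℕ → ℕ → ℕ} (hT : Tup n T) {F : ℕ → ℝ} (hF : ∀ s, |F s| = 1)
    (hlow : ∀ r < D, ∃ x : X, ‖x‖ ≤ 1 ∧ ∃ᶠ k in atTop, r < ‖av n (fun s => F s • d (T k s) x)‖) :
    ∃ x : X, ‖x‖ ≤ 1 ∧ ∃ᶠ k in atTop,
      av n (fun s => ‖d (T k s) x - ((D * F s : ℝ) : 𝕜)‖ ^ 2) ≤ D ^ 2 / 100 := by
  set δ : ℝ := D / 1000 with hδ
  have hδ0 : 0 < δ := by positivity
  obtain ⟨x₀, hx₀, hfr⟩ := hlow (D - δ / 2) (by linarith)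
  have hev0 := hup δ hδ0 x₀ hx₀
  have hev : ∀ᶠ k in atTop, ∀ s < 2 ^ n, ‖d (T k s) x₀‖ ≤ D + δ := by
    obtain ⟨N, hN⟩ := eventually_atTop.1 hev0
    filter_upwards [eventually_ge_atTop N] with k hk s hs
    exact hN _ (hk.trans (hT.le k s hs))
  set z : ℕ → 𝕜 := fun k => av n (fun s => F s • d (T k s) x₀) with hz
  set S : Set 𝕜 := {w | D - δ / 2 ≤ ‖w‖ ∧ ‖w‖ ≤ D + δ} with hS
  have hSb : Bornology.IsBounded S := by
    refine (Metric.isBounded_closedBall (x := (0 : 𝕜)) (r := D + δ)).subset fun w hw => ?_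
    rw [mem_closedBall_zero_iff]; exact hw.2
  have hSc : IsClosed S :=
    (isClosed_le continuous_const continuous_norm).inter
      (isClosed_le continuous_norm continuous_const)
  have hfr2 : ∃ᶠ k in atTop, z k ∈ S ∧ ∀ s < 2 ^ n, ‖d (T k s) x₀‖ ≤ D + δ := by
    refine (hfr.and_eventually hev).mono fun k hk => ⟨⟨hk.1.le, ?_⟩, hk.2⟩
    refine (norm_av_le _ _).trans ?_
    calc av n (fun s => ‖F s • d (T k s) x₀‖) ≤ av n (fun _ => D + δ) := by
          refine av_mono fun s hs => ?_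
          rw [norm_smul, Real.norm_eq_abs, hF, one_mul]
          exact hk.2 s hs
      _ = _ := av_const _ _
  obtain ⟨ψ, hψ, hψ2⟩ := extraction_of_frequently_atTop hfr2
  obtain ⟨a, ha, φ, hφ, hlim⟩ := tendsto_subseq_of_bounded hSb (x := fun k => z (ψ k))
    (fun k => (hψ2 k).1)
  rw [hSc.closure_eq] at ha
  have ha0 : a ≠ 0 := by
    rintro rfl
    have := ha.1
    rw [norm_zero] at this
    linarith
  have hna : ‖a‖ ≠ 0 := norm_ne_zero_iff.2 ha0
  set u : 𝕜 := (starRingEnd 𝕜 a) / (‖a‖ : 𝕜) with hu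
  have hun : ‖u‖ = 1 := by
    rw [hu, norm_div, RCLike.norm_conj, RCLike.norm_ofReal, abs_norm, div_self hna]
  have hua : u * a = (‖a‖ : 𝕜) := by
    have h1 : (‖a‖ : 𝕜) ≠ 0 := by exact_mod_cast hna
    rw [hu, div_mul_eq_mul_div, RCLike.conj_mul, pow_two, mul_div_assoc, div_self h1, mul_one]
  refine ⟨u • x₀, by rw [norm_smul, hun, one_mul]; exact hx₀, ?_⟩
  have hlim2 : Tendsto (fun k => RCLike.re (u * z (ψ (φ k)))) atTop (𝓝 ‖a‖) := by
    have h1 : Tendsto (fun k => u * z (ψ (φ k))) atTop (𝓝 (u * a)) := hlim.const_mul u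
    rw [hua] at h1
    have h2 := (RCLike.continuous_re.tendsto _).comp h1
    rw [RCLike.ofReal_re] at h2
    exact h2
  have hev2 : ∀ᶠ k in atTop, D - δ < RCLike.re (u * z (ψ (φ k))) :=
    hlim2.eventually_const_lt (by linarith [ha.1])
  have hmain : ∀ᶠ k in atTop, av n (fun s => ‖d (T (ψ (φ k)) s) (u • x₀) -
      ((D * F s : ℝ) : 𝕜)‖ ^ 2) ≤ D ^ 2 / 100 := by
    filter_upwards [hev2] with k hk
    refine (av_close (n := n) (a := fun s => d (T (ψ (φ k)) s) (u • x₀)) hF hD hδ0.le ?_ ?_).trans ?_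
    · intro s hs
      simp only [map_smul, norm_smul, hun, one_mul]
      exact (hψ2 (φ k)).2 s hs
    · have : av n (fun s => F s • d (T (ψ (φ k)) s) (u • x₀)) = u * z (ψ (φ k)) := by
        rw [hz, ← av_smul_left]
        refine av_congr fun s _ => ?_
        rw [map_smul, smul_eq_mul, mul_smul_comm]
      rw [this]; exact hk.le
    · rw [hδ]; nlinarith [sq_nonneg D]
  exact ((hψ.comp hφ).tendsto_atTop).frequently hmain.frequently

/-- The tree. -/
theorem exists_tree (d : ℕ → X →L[𝕜] 𝕜) {D : ℝ} (hD : 0 < D)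
    (hup : ∀ ε > 0, ∀ x : X, ‖x‖ ≤ 1 → ∀ᶠ k in atTop, ‖d k x‖ ≤ D + ε)
    (hlow : ∀ (n : ℕ) (T : ℕ → ℕ → ℕ) (_ : Tup n T) (F : ℕ → ℝ) (_ : ∀ s, |F s| = 1),
      ∀ r < D, ∃ x : X, ‖x‖ ≤ 1 ∧ ∃ᶠ k in atTop, r < ‖av n (fun s => F s • d (T k s) x)‖) :
    ∃ (x : ℕ → X) (τ : ℕ → ℕ → ℕ), (∀ n, ‖x n‖ ≤ 1) ∧ ∀ j, ∀ᶠ n in atTop,
      av n (fun s => ‖d (τ n s) (x j) -
        ((D * sgc (Nat.unpair j).1 (Nat.unpair j).2 s : ℝ) : 𝕜)‖ ^ 2) ≤ D ^ 2 / 100 := by
  classical
  set F : ℕ → ℕ → ℝ := fun j => sgc (Nat.unpair j).1 (Nat.unpair j).2 with hFdef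
  have hF : ∀ j s, |F j s| = 1 := fun j s => abs_sgc _ _ _
  have hFadd : ∀ j n, j ≤ n → ∀ s, F j (2 ^ n + s) = F j s := fun j n hjn s =>
    sgc_add ((Nat.unpair_left_le j).trans hjn) _ _
  -- the step
  have step : ∀ (n : ℕ) (T : {T : ℕ → ℕ → ℕ // Tup n T}),
      ∃ (x : X) (T' : {T : ℕ → ℕ → ℕ // Tup (n + 1) T}), ‖x‖ ≤ 1 ∧
        (∀ k, ∃ k1 k2, (∀ s < 2 ^ n, T'.1 k s = T.1 k1 s) ∧
          (∀ s < 2 ^ n, T'.1 k (2 ^ n + s) = T.1 k2 s)) ∧
        ∀ k, av (n + 1) (fun s => ‖d (T'.1 k s) x - ((D * F n s : ℝ) : 𝕜)‖ ^ 2) ≤ D ^ 2 / 100 := by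
    intro n T
    obtain ⟨x, hx, hfr⟩ := step_point d hD hup T.2 (hF n) (hlow n T.1 T.2 (F n) (hF n))
    obtain ⟨φ, hφ, hφ2⟩ := extraction_of_frequently_atTop hfr
    refine ⟨x, ⟨pairT n (fun k => T.1 (φ k)), (T.2.comp hφ).pair⟩, hx, ?_, ?_⟩
    · intro k
      exact ⟨φ (2 * k), φ (2 * k + 1), fun s hs => pairT_low (fun k => T.1 (φ k)) k hs,
        fun s _ => pairT_high (fun k => T.1 (φ k)) k s⟩
    · intro k
      rw [av_succ]
      have h1 := hφ2 (2 * k)
      have h2 := hφ2 (2 * k + 1)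
      have e1 : av n (fun s => ‖d (pairT n (fun k => T.1 (φ k)) k s) x -
          ((D * F n s : ℝ) : 𝕜)‖ ^ 2) =
          av n (fun s => ‖d (T.1 (φ (2 * k)) s) x - ((D * F n s : ℝ) : 𝕜)‖ ^ 2) :=
        av_congr fun s hs => by rw [pairT_low _ _ hs]
      have e2 : av n (fun s => ‖d (pairT n (fun k => T.1 (φ k)) k (2 ^ n + s)) x -
          ((D * F n (2 ^ n + s) : ℝ) : 𝕜)‖ ^ 2) =
          av n (fun s => ‖d (T.1 (φ (2 * k + 1)) s) x - ((D * F n s : ℝ) : 𝕜)‖ ^ 2) :=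
        av_congr fun s hs => by rw [pairT_high, hFadd n n le_rfl]
      simp only at e1 e2 ⊢
      rw [e1, e2, smul_eq_mul]
      linarith
  choose x T' hx hpair hav using step
  -- the sequence of stages
  let St : (n : ℕ) → {T : ℕ → ℕ → ℕ // Tup n T} := fun n => Nat.rec
    ⟨fun k _ => k, by
      constructor
      · intro k s hs s' hs' _
        simp only [pow_zero, Nat.lt_one_iff] at hs hs'
        rw [hs, hs']
      · intro k k' hk s _ s' _
        exact hk⟩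
    (fun n T => T' n T) n
  have hSt : ∀ n, St (n + 1) = T' n (St n) := fun n => rfl
  refine ⟨fun n => x n (St n), fun n => (St n).1 0, fun n => hx n _, fun j => ?_⟩
  have key : ∀ n, j + 1 ≤ n → ∀ k, av n (fun s => ‖d ((St n).1 k s) (x j (St j)) -
      ((D * F j s : ℝ) : 𝕜)‖ ^ 2) ≤ D ^ 2 / 100 := by
    intro n hn
    induction n, hn using Nat.le_induction with
    | base => intro k; rw [hSt]; exact hav j (St j) k
    | succ n hn ih =>
      intro k
      obtain ⟨k1, k2, h1, h2⟩ := hpair n (St n) k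
      rw [av_succ]
      have e1 : av n (fun s => ‖d ((St (n + 1)).1 k s) (x j (St j)) -
          ((D * F j s : ℝ) : 𝕜)‖ ^ 2) =
          av n (fun s => ‖d ((St n).1 k1 s) (x j (St j)) - ((D * F j s : ℝ) : 𝕜)‖ ^ 2) :=
        av_congr fun s hs => by rw [hSt, h1 s hs]
      have e2 : av n (fun s => ‖d ((St (n + 1)).1 k (2 ^ n + s)) (x j (St j)) -
          ((D * F j (2 ^ n + s) : ℝ) : 𝕜)‖ ^ 2) =
          av n (fun s => ‖d ((St n).1 k2 s) (x j (St j)) - ((D * F j s : ℝ) : 𝕜)‖ ^ 2) :=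
        av_congr fun s hs => by rw [hSt, h2 s hs, hFadd j n (by omega)]
      rw [e1, e2, smul_eq_mul]
      have i1 := ih k1
      have i2 := ih k2
      linarith
  filter_upwards [eventually_ge_atTop (j + 1)] with n hn
  exact key n hn 0

end tree

end Crest.Agent.R114.HJ
end

-- ▼ part R114/HJ/C0
section

/-!
# R114 / HJ / C0 (helper417): a weak*-null sequence of functionals with a lower `ℓ₁`-estimate
gives a quotient isomorphic to `c₀`, hence a separable infinite-dimensional quotient.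
-/

set_option autoImplicit false

namespace Crest.Agent.R114.HJ

open Filter Topology Metric
open scoped ENNReal

section
variable {𝕜 : Type*} [RCLike 𝕜]
variable {X : Type*} [NormedAddCommGroup X] [NormedSpace 𝕜 X]

/-- the space `ℓ_∞` -/
abbrev EE (𝕜 : Type*) [RCLike 𝕜] := lp (fun _ : ℕ => 𝕜) ∞

/-- unit vectors -/
noncomputable def ee (𝕜 : Type*) [RCLike 𝕜] (m : ℕ) : EE 𝕜 := lp.single ∞ m (1 : 𝕜)

theorem ee_apply (m k : ℕ) : (ee 𝕜 m) k = if k = m then 1 else 0 := by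
  unfold ee
  rw [lp.single_apply]
  by_cases h : k = m
  · subst h; simp
  · simp [h]

theorem sum_ee_apply (s : Finset ℕ) (c : ℕ → 𝕜) (k : ℕ) :
    (∑ m ∈ s, c m • ee 𝕜 m) k = if k ∈ s then c k else 0 := by
  rw [lp.coeFn_sum, Finset.sum_apply]
  have : ∀ m ∈ s, (c m • ee 𝕜 m) k = if m = k then c m else 0 := by
    intro m _
    rw [lp.coeFn_smul, Pi.smul_apply, ee_apply, smul_eq_mul]
    by_cases h : k = m
    · subst h; simp
    · simp [h, Ne.symm h]
  rw [Finset.sum_congr rfl this, Finset.sum_ite_eq']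

/-- the copy of `c₀` -/
noncomputable def YY (𝕜 : Type*) [RCLike 𝕜] : Submodule 𝕜 (EE 𝕜) :=
  (Submodule.span 𝕜 (Set.range (ee 𝕜))).topologicalClosure

theorem ee_mem (m : ℕ) : ee 𝕜 m ∈ YY 𝕜 :=
  Submodule.le_topologicalClosure _ (Submodule.subset_span ⟨m, rfl⟩)

theorem trunc_le (y : EE 𝕜) (n : ℕ) (ε : ℝ) (hε : 0 ≤ ε) (h : ∀ k, n ≤ k → ‖y k‖ ≤ ε) :
    ‖y - ∑ m ∈ Finset.range n, y m • ee 𝕜 m‖ ≤ ε := by
  refine lp.norm_le_of_forall_le hε fun k => ?_
  rw [lp.coeFn_sub, Pi.sub_apply, sum_ee_apply (Finset.range n) (fun m => y m) k]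
  by_cases hk : k ∈ Finset.range n
  · rw [if_pos hk, sub_self, norm_zero]; exact hε
  · rw [if_neg hk, sub_zero]
    exact h k (by simpa using hk)

theorem null_of_mem {y : EE 𝕜} (hy : y ∈ YY 𝕜) {ε : ℝ} (hε : 0 < ε) :
    ∃ n, ∀ k, n ≤ k → ‖y k‖ ≤ ε := by
  have hy' : y ∈ closure (Submodule.span 𝕜 (Set.range (ee 𝕜)) : Set (EE 𝕜)) := hy
  obtain ⟨z, hz, hyz⟩ := Metric.mem_closure_iff.mp hy' ε hε
  have hz' : ∃ n, ∀ k, n ≤ k → z k = 0 := by
    refine Submodule.span_induction (p := fun z _ => ∃ n, ∀ k, n ≤ k → z k = 0) ?_ ?_ ?_ ?_ hz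
    · rintro _ ⟨m, rfl⟩
      refine ⟨m + 1, fun k hk => ?_⟩
      rw [ee_apply, if_neg (by omega)]
    · exact ⟨0, fun k _ => by simp⟩
    · rintro a b _ _ ⟨n, hn⟩ ⟨n', hn'⟩
      refine ⟨max n n', fun k hk => ?_⟩
      rw [lp.coeFn_add, Pi.add_apply, hn k (le_trans (le_max_left _ _) hk),
        hn' k (le_trans (le_max_right _ _) hk), add_zero]
    · rintro c a _ ⟨n, hn⟩
      refine ⟨n, fun k hk => ?_⟩
      rw [lp.coeFn_smul, Pi.smul_apply, hn k hk, smul_zero]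
  obtain ⟨n, hn⟩ := hz'
  refine ⟨n, fun k hk => ?_⟩
  have h1 : y k = (y - z) k := by rw [lp.coeFn_sub, Pi.sub_apply, hn k hk, sub_zero]
  rw [h1]
  rw [dist_eq_norm] at hyz
  exact (lp.norm_apply_le_norm ENNReal.top_ne_zero (y - z) k).trans hyz.le

theorem tendsto_trunc (y : EE 𝕜) (h : ∀ ε : ℝ, 0 < ε → ∃ n, ∀ k, n ≤ k → ‖y k‖ ≤ ε) :
    Tendsto (fun n => ∑ m ∈ Finset.range n, y m • ee 𝕜 m) atTop (𝓝 y) := by
  rw [Metric.tendsto_atTop]
  intro ε hε
  obtain ⟨n, hn⟩ := h (ε / 2) (by positivity)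
  refine ⟨n, fun N hN => ?_⟩
  rw [dist_comm, dist_eq_norm]
  have := trunc_le y N (ε / 2) (by positivity) fun k hk => hn k (hN.trans hk)
  linarith

theorem mem_of_null (y : EE 𝕜) (h : ∀ ε : ℝ, 0 < ε → ∃ n, ∀ k, n ≤ k → ‖y k‖ ≤ ε) :
    y ∈ YY 𝕜 := by
  have hcl : IsClosed (YY 𝕜 : Set (EE 𝕜)) := Submodule.isClosed_topologicalClosure _
  refine hcl.mem_of_tendsto (tendsto_trunc y h) (Eventually.of_forall fun n => ?_)
  exact Submodule.sum_mem _ fun m _ => Submodule.smul_mem _ _ (ee_mem m)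

instance : TopologicalSpace.SeparableSpace (YY 𝕜) := by
  have h1 : TopologicalSpace.IsSeparable (YY 𝕜 : Set (EE 𝕜)) :=
    ((Set.countable_range (ee 𝕜)).isSeparable.span (R := 𝕜)).closure
  exact h1.separableSpace

instance : CompleteSpace (YY 𝕜) := by
  unfold YY; infer_instance

/-- unit vectors in `c₀` -/
noncomputable def ey (𝕜 : Type*) [RCLike 𝕜] (m : ℕ) : YY 𝕜 := ⟨ee 𝕜 m, ee_mem m⟩

theorem not_finiteDimensional_YY : ¬ FiniteDimensional 𝕜 (YY 𝕜) := by
  intro hfd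
  have hli : LinearIndependent 𝕜 (ey 𝕜) := by
    rw [linearIndependent_iff']
    intro s g hg i hi
    have h1 : ((∑ m ∈ s, g m • ey 𝕜 m : YY 𝕜) : EE 𝕜) i = 0 := by rw [hg]; simp
    have h2 : ((∑ m ∈ s, g m • ey 𝕜 m : YY 𝕜) : EE 𝕜) = ∑ m ∈ s, g m • ee 𝕜 m := by
      simp [ey]
    rw [h2, sum_ee_apply, if_pos hi] at h1
    exact h1
  have := hli.finite_of_isNoetherian
  exact not_finite ℕ

/-- the operator `x ↦ (d_k x)` -/
noncomputable def TT (d : ℕ → X →L[𝕜] 𝕜) (hd : ∀ k, ‖d k‖ ≤ 1) : X →L[𝕜] EE 𝕜 :=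
  LinearMap.mkContinuous
    { toFun := fun x => ⟨fun k => d k x, memℓp_infty ⟨‖x‖, by
        rintro _ ⟨k, rfl⟩
        calc ‖d k x‖ ≤ ‖d k‖ * ‖x‖ := (d k).le_opNorm x
          _ ≤ 1 * ‖x‖ := by gcongr; exact hd k
          _ = ‖x‖ := one_mul _⟩⟩
      map_add' := fun x y => by
        ext k; simp
      map_smul' := fun c x => by
        ext k; simp } 1 (fun x => by
      refine lp.norm_le_of_forall_le (by positivity) fun k => ?_
      calc ‖d k x‖ ≤ ‖d k‖ * ‖x‖ := (d k).le_opNorm x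
          _ ≤ 1 * ‖x‖ := by gcongr; exact hd k)


theorem sepQuot_of_null [CompleteSpace X] (d : ℕ → X →L[𝕜] 𝕜) (hd : ∀ k, ‖d k‖ ≤ 1) {ρ : ℝ}
    (hρ : 0 < ρ)
    (hl : ∀ (s : Finset ℕ) (c : ℕ → 𝕜), ρ * ∑ i ∈ s, ‖c i‖ ≤ ‖∑ i ∈ s, c i • d i‖)
    (h0 : ∀ x, Tendsto (fun k => d k x) atTop (𝓝 0)) : SepQuot 𝕜 X := by
  have hmem : ∀ x, TT d hd x ∈ YY 𝕜 := by
    intro x
    refine mem_of_null _ fun ε hε => ?_
    obtain ⟨n, hn⟩ := Metric.tendsto_atTop.mp (h0 x) ε hε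
    refine ⟨n, fun k hk => ?_⟩
    have := hn k hk
    rw [dist_zero_right] at this
    exact this.le
  let T : X →L[𝕜] YY 𝕜 := (TT d hd).codRestrict (YY 𝕜) hmem
  have hsurj : Function.Surjective T := by
    refine surjective_of_dual_bound T hρ fun ψ => ?_
    -- coefficients
    set a : ℕ → 𝕜 := fun m => ψ (ey 𝕜 m) with ha
    have hfin : ∀ s : Finset ℕ, ∑ m ∈ s, ‖a m‖ ≤ ‖ψ‖ := by
      intro s
      have hsg : ∀ z : 𝕜, ∃ l : 𝕜, ‖l‖ ≤ 1 ∧ l * z = (‖z‖ : 𝕜) := by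
        intro z
        obtain ⟨l, hl1, hl2⟩ := RCLike.exists_norm_eq_mul_self z
        exact ⟨l, hl1.le, hl2.symm⟩
      choose l hl1 hl2 using hsg
      let y : YY 𝕜 := ∑ m ∈ s, l (a m) • ey 𝕜 m
      have hy1 : ‖y‖ ≤ 1 := by
        show ‖((∑ m ∈ s, l (a m) • ey 𝕜 m : YY 𝕜) : EE 𝕜)‖ ≤ 1
        have h2 : ((∑ m ∈ s, l (a m) • ey 𝕜 m : YY 𝕜) : EE 𝕜) = ∑ m ∈ s, l (a m) • ee 𝕜 m := by
          simp [ey]
        rw [h2]
        refine lp.norm_le_of_forall_le zero_le_one fun k => ?_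
        rw [sum_ee_apply s (fun m => l (a m)) k]
        split_ifs
        · exact hl1 _
        · simp
      have hy2 : ψ y = ((∑ m ∈ s, ‖a m‖ : ℝ) : 𝕜) := by
        simp only [y, map_sum, map_smul, smul_eq_mul]
        exact Finset.sum_congr rfl fun m _ => hl2 _
      have hnn : 0 ≤ ∑ m ∈ s, ‖a m‖ := Finset.sum_nonneg fun _ _ => norm_nonneg _
      calc ∑ m ∈ s, ‖a m‖ = ‖ψ y‖ := by rw [hy2, RCLike.norm_ofReal, abs_of_nonneg hnn]
        _ ≤ ‖ψ‖ * ‖y‖ := ψ.le_opNorm y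
        _ ≤ ‖ψ‖ * 1 := by gcongr
        _ = ‖ψ‖ := mul_one _
    have hsum : Summable fun m => ‖a m‖ :=
      summable_of_sum_le (fun _ => norm_nonneg _) hfin
    set A : ℝ := ∑' m, ‖a m‖ with hA
    -- `ψ y = lim ∑ y_m a_m`
    have hlim : ∀ y : YY 𝕜, Tendsto (fun n => ∑ m ∈ Finset.range n, (y : EE 𝕜) m * a m) atTop
        (𝓝 (ψ y)) := by
      intro y
      have h1 := tendsto_trunc (y : EE 𝕜) fun ε hε => null_of_mem y.2 hε
      have h2 : Tendsto (fun n => ∑ m ∈ Finset.range n, (y : EE 𝕜) m • ey 𝕜 m) atTop (𝓝 y) := by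
        rw [tendsto_subtype_rng]
        simpa [ey] using h1
      have h3 := (ψ.continuous.tendsto y).comp h2
      refine h3.congr fun n => ?_
      simp [ha]
    have hψ : ‖ψ‖ ≤ A := by
      refine ContinuousLinearMap.opNorm_le_bound _ (tsum_nonneg fun _ => norm_nonneg _) fun y => ?_
      refine le_of_tendsto (hlim y).norm (Eventually.of_forall fun n => ?_)
      calc ‖∑ m ∈ Finset.range n, (y : EE 𝕜) m * a m‖
          ≤ ∑ m ∈ Finset.range n, ‖(y : EE 𝕜) m * a m‖ := norm_sum_le _ _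
        _ ≤ ∑ m ∈ Finset.range n, ‖y‖ * ‖a m‖ := by
            refine Finset.sum_le_sum fun m _ => ?_
            rw [norm_mul]
            gcongr
            exact lp.norm_apply_le_norm ENNReal.top_ne_zero (y : EE 𝕜) m
        _ = (∑ m ∈ Finset.range n, ‖a m‖) * ‖y‖ := by rw [← Finset.mul_sum, mul_comm]
        _ ≤ A * ‖y‖ := by
            gcongr
            exact hsum.sum_le_tsum _ fun _ _ => norm_nonneg _
    -- lower bound
    have hlow : ∀ n, ρ * ∑ m ∈ Finset.range n, ‖a m‖ ≤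
        ‖ψ.comp T‖ + (A - ∑ m ∈ Finset.range n, ‖a m‖) := by
      intro n
      refine (hl (Finset.range n) a).trans ?_
      have htail : 0 ≤ A - ∑ m ∈ Finset.range n, ‖a m‖ :=
        sub_nonneg.mpr (hsum.sum_le_tsum _ fun _ _ => norm_nonneg _)
      refine ContinuousLinearMap.opNorm_le_bound _ (add_nonneg (norm_nonneg _) htail) fun x => ?_
      have h1 : (∑ m ∈ Finset.range n, a m • d m) x = ∑ m ∈ Finset.range n, d m x * a m := by
        simp [mul_comm]
      have h2 : ‖∑ m ∈ Finset.range n, d m x * a m - ψ (T x)‖ ≤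
          (A - ∑ m ∈ Finset.range n, ‖a m‖) * ‖x‖ := by
        have h3 := (tendsto_const_nhds (x := ∑ m ∈ Finset.range n, d m x * a m)).sub (hlim (T x))
        refine le_of_tendsto h3.norm ?_
        filter_upwards [eventually_ge_atTop n] with N hN
        have h4 : ∀ m, ((T x : YY 𝕜) : EE 𝕜) m = d m x := fun m => rfl
        simp only [h4]
        rw [norm_sub_rev, ← Finset.sum_range_add_sum_Ico _ hN, add_sub_cancel_left]
        calc ‖∑ m ∈ Finset.Ico n N, d m x * a m‖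
            ≤ ∑ m ∈ Finset.Ico n N, ‖d m x * a m‖ := norm_sum_le _ _
          _ ≤ ∑ m ∈ Finset.Ico n N, ‖a m‖ * ‖x‖ := by
              refine Finset.sum_le_sum fun m _ => ?_
              rw [norm_mul, mul_comm]
              gcongr
              calc ‖d m x‖ ≤ ‖d m‖ * ‖x‖ := (d m).le_opNorm x
                _ ≤ 1 * ‖x‖ := by gcongr; exact hd m
                _ = ‖x‖ := one_mul _
          _ = (∑ m ∈ Finset.Ico n N, ‖a m‖) * ‖x‖ := by rw [Finset.sum_mul]
          _ ≤ (A - ∑ m ∈ Finset.range n, ‖a m‖) * ‖x‖ := by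
              gcongr
              have h5 : ∑ m ∈ Finset.range N, ‖a m‖ ≤ A :=
                hsum.sum_le_tsum _ fun _ _ => norm_nonneg _
              rw [← Finset.sum_range_add_sum_Ico _ hN] at h5
              linarith
      rw [h1]
      calc ‖∑ m ∈ Finset.range n, d m x * a m‖
          = ‖ψ (T x) + (∑ m ∈ Finset.range n, d m x * a m - ψ (T x))‖ := by congr 1; ring
        _ ≤ ‖ψ (T x)‖ + ‖∑ m ∈ Finset.range n, d m x * a m - ψ (T x)‖ := norm_add_le _ _
        _ ≤ ‖ψ.comp T‖ * ‖x‖ + (A - ∑ m ∈ Finset.range n, ‖a m‖) * ‖x‖ := by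
            gcongr
            exact (ψ.comp T).le_opNorm x
        _ = (‖ψ.comp T‖ + (A - ∑ m ∈ Finset.range n, ‖a m‖)) * ‖x‖ := by ring
    have hAn : Tendsto (fun n => ∑ m ∈ Finset.range n, ‖a m‖) atTop (𝓝 A) :=
      hsum.hasSum.tendsto_sum_nat
    have h6 : ρ * A ≤ ‖ψ.comp T‖ + (A - A) :=
      le_of_tendsto_of_tendsto' (hAn.const_mul ρ)
        (tendsto_const_nhds.add (tendsto_const_nhds.sub hAn)) hlow
    calc ρ * ‖ψ‖ ≤ ρ * A := by gcongr
      _ ≤ ‖ψ.comp T‖ := by linarith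
  exact SepQuot.of_surjective T hsurj
    (SepQuot.of_separable not_finiteDimensional_YY inferInstance)

end

end Crest.Agent.R114.HJ
end

-- ▼ part R114/VT6
section

/-!
Row 114, statement S0153, piece T6: a Banach space containing a sequence equivalent to the unit
vector basis of `ℓ¹` has `ℓ²` as a quotient (Riesz products and an ultralimit).
-/

set_option autoImplicit false

open Filter Topology

namespace Crest.Agent.R114.V

universe u

namespace T6aux

/-! ### Sums over sign patterns -/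

/-- The sign attached to a Boolean. -/
def sg (b : Bool) : ℝ := if b then 1 else -1

theorem sg_sq (b : Bool) : sg b * sg b = 1 := by cases b <;> simp [sg]

theorem sum_prod_bool {R : Type*} [CommRing R] (N : ℕ) (f : Fin N → Bool → R) :
    ∑ ω : Fin N → Bool, ∏ j, f j (ω j) = ∏ j, (f j true + f j false) := by
  classical
  have h := (Finset.prod_univ_sum (fun _ : Fin N => (Finset.univ : Finset Bool)) f).symm
  rw [Fintype.piFinset_univ] at h
  rw [h]
  refine Finset.prod_congr rfl fun j _ => ?_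
  simp

/-- The Riesz product (before taking the imaginary part). -/
noncomputable def rpc {N : ℕ} (q : Fin N → ℝ) (ω : Fin N → Bool) : ℂ :=
  ∏ j, (1 + Complex.I * q j * sg (ω j))

/-- The (imaginary part of the) Riesz product. -/
noncomputable def rp {N : ℕ} (q : Fin N → ℝ) (ω : Fin N → Bool) : ℝ := (rpc q ω).im




theorem sum_sg_sg {N : ℕ} (j k : Fin N) :
    ∑ ω : Fin N → Bool, sg (ω j) * sg (ω k) = if j = k then 2 ^ N else 0 := by
  by_cases h : j = k
  · subst h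
    simp [sg_sq]
  · rw [if_neg h]
    have h2 : ∀ ω : Fin N → Bool, sg (ω j) * sg (ω k)
        = ∏ i, ((if i = j then sg (ω i) else 1) * (if i = k then sg (ω i) else 1)) := by
      intro ω
      rw [Finset.prod_mul_distrib, Finset.prod_ite_eq' Finset.univ j,
        Finset.prod_ite_eq' Finset.univ k]
      simp
    simp_rw [h2]
    rw [sum_prod_bool N (fun i b => (if i = j then sg b else 1) * (if i = k then sg b else 1))]
    apply Finset.prod_eq_zero (Finset.mem_univ j)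
    simp [h, sg]

/-! ### The Rademacher coefficients and Bessel's inequality -/

variable {𝕜 : Type*} [RCLike 𝕜]

/-- Rademacher coefficients. -/
noncomputable def rad {N : ℕ} (f : (Fin N → Bool) → 𝕜) (j : Fin N) : 𝕜 :=
  ((2 : ℝ) ^ N : ℝ)⁻¹ • ∑ ω : Fin N → Bool, ((sg (ω j) : ℝ) : 𝕜) * f ω

theorem bessel {N : ℕ} (f : (Fin N → Bool) → 𝕜) (K : ℝ) (hf : ∀ ω, ‖f ω‖ ≤ K)
    (J : Finset (Fin N)) : ∑ j ∈ J, ‖rad f j‖ ^ 2 ≤ K ^ 2 := by
  classical
  set r : ℝ := Real.sqrt (2 ^ N) with hr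
  have hrpos : 0 < r := Real.sqrt_pos.mpr (by positivity)
  have hr2 : r * r = 2 ^ N := Real.mul_self_sqrt (by positivity)
  let v : Fin N → EuclideanSpace 𝕜 (Fin N → Bool) := fun j =>
    WithLp.toLp 2 (fun ω => (((sg (ω j) / r : ℝ)) : 𝕜))
  let F : EuclideanSpace 𝕜 (Fin N → Bool) := WithLp.toLp 2 f
  have hv : Orthonormal 𝕜 v := by
    rw [orthonormal_iff_ite]
    intro i j
    have h1 : inner 𝕜 (v i) (v j) = (((∑ ω : Fin N → Bool, sg (ω i) * sg (ω j)) / (r * r) : ℝ) : 𝕜) := by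
      rw [PiLp.inner_apply, Finset.sum_div, RCLike.ofReal_sum]
      refine Finset.sum_congr rfl fun ω _ => ?_
      simp only [v, RCLike.inner_apply, RCLike.conj_ofReal]
      rw [← RCLike.ofReal_mul]
      congr 1
      field_simp
    rw [h1, sum_sg_sg, hr2]
    by_cases h : i = j
    · simp [h]
    · simp [h]
  have hin : ∀ j, inner 𝕜 (v j) F = (r : 𝕜) * rad f j := by
    intro j
    rw [PiLp.inner_apply, rad, RCLike.real_smul_eq_coe_mul, Finset.mul_sum, Finset.mul_sum]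
    refine Finset.sum_congr rfl fun ω _ => ?_
    simp only [v, F, RCLike.inner_apply, RCLike.conj_ofReal]
    have h2 : ((sg (ω j) / r : ℝ) : 𝕜) = (r : 𝕜) * ((((2 : ℝ) ^ N)⁻¹ : ℝ) * ((sg (ω j) : ℝ) : 𝕜)) := by
      rw [← RCLike.ofReal_mul, ← RCLike.ofReal_mul, ← hr2]
      congr 1
      field_simp
    rw [h2]; ring
  have h3 := hv.sum_inner_products_le F (s := J)
  have h4 : ‖F‖ ^ 2 ≤ 2 ^ N * K ^ 2 := by
    rw [EuclideanSpace.norm_sq_eq]
    calc ∑ ω, ‖F ω‖ ^ 2 ≤ ∑ _ω : Fin N → Bool, K ^ 2 := by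
          refine Finset.sum_le_sum fun ω _ => ?_
          exact pow_le_pow_left₀ (norm_nonneg _) (hf ω) 2
      _ = 2 ^ N * K ^ 2 := by simp
  have h5 : ∑ j ∈ J, ‖inner 𝕜 (v j) F‖ ^ 2 = 2 ^ N * ∑ j ∈ J, ‖rad f j‖ ^ 2 := by
    rw [Finset.mul_sum]
    refine Finset.sum_congr rfl fun j _ => ?_
    rw [hin, norm_mul, mul_pow, RCLike.norm_ofReal, abs_of_pos hrpos, ← hr2]; ring
  rw [h5] at h3
  have h6 : (2 : ℝ) ^ N * ∑ j ∈ J, ‖rad f j‖ ^ 2 ≤ 2 ^ N * K ^ 2 := h3.trans h4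
  exact le_of_mul_le_mul_left h6 (by positivity)

/-! ### Hahn–Banach -/

variable {X : Type u} [NormedAddCommGroup X] [NormedSpace 𝕜 X]


/-! ### Ultralimits -/

/-- The limit of a sequence of scalars along a fixed nonprincipal ultrafilter. -/
noncomputable def ulim (f : ℕ → 𝕜) : 𝕜 := limUnder (hyperfilter ℕ : Filter ℕ) f

theorem tendsto_ulim {f : ℕ → 𝕜} {C : ℝ} (hf : ∀ n, ‖f n‖ ≤ C) :
    Tendsto f (hyperfilter ℕ : Filter ℕ) (𝓝 (ulim f)) := by
  apply tendsto_nhds_limUnder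
  have h1 : IsCompact (Metric.closedBall (0 : 𝕜) C) := isCompact_closedBall _ _
  obtain ⟨z, -, hz⟩ := h1.ultrafilter_le_nhds' ((hyperfilter ℕ).map f) (by
    rw [Ultrafilter.mem_map]
    filter_upwards with n
    simpa using hf n)
  exact ⟨z, hz⟩

theorem le_hyperfilter : (hyperfilter ℕ : Filter ℕ) ≤ atTop := by
  rw [← Nat.cofinite_eq_atTop]
  exact hyperfilter_le_cofinite

theorem ulim_add {f g : ℕ → 𝕜} {C D : ℝ} (hf : ∀ n, ‖f n‖ ≤ C) (hg : ∀ n, ‖g n‖ ≤ D) :
    ulim (fun n => f n + g n) = ulim f + ulim g :=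
  tendsto_nhds_unique
    (tendsto_ulim (C := C + D) fun n => (norm_add_le _ _).trans (add_le_add (hf n) (hg n)))
    ((tendsto_ulim hf).add (tendsto_ulim hg))

theorem ulim_smul {f : ℕ → 𝕜} {C : ℝ} (a : 𝕜) (hf : ∀ n, ‖f n‖ ≤ C) :
    ulim (fun n => a * f n) = a * ulim f :=
  tendsto_nhds_unique
    (tendsto_ulim (C := ‖a‖ * C) fun n => by
      rw [norm_mul]; exact mul_le_mul_of_nonneg_left (hf n) (norm_nonneg _))
    ((tendsto_ulim hf).const_mul a)


/-! ### `ℓ²` -/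

/-- The sequence space `ℓ²`. -/
abbrev L2 (𝕜 : Type*) [RCLike 𝕜] := lp (fun _ : ℕ => 𝕜) 2

instance separable_L2 : TopologicalSpace.SeparableSpace (L2 𝕜) := by
  rw [← TopologicalSpace.isSeparable_univ_iff]
  have h1 : TopologicalSpace.IsSeparable
      (Submodule.span 𝕜 (Set.range (fun n : ℕ => (lp.single 2 n (1 : 𝕜) : L2 𝕜))) : Set (L2 𝕜)) :=
    (Set.countable_range _).isSeparable.span
  refine h1.closure.mono ?_
  intro z _
  have h2 := lp.hasSum_single (p := 2) (by norm_num) z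
  refine mem_closure_of_tendsto h2 (Eventually.of_forall fun s => ?_)
  refine Submodule.sum_mem _ fun i _ => ?_
  have h3 : (lp.single 2 i (z i) : L2 𝕜) = z i • lp.single 2 i (1 : 𝕜) := by
    rw [← lp.single_smul]; simp
  rw [h3]
  exact Submodule.smul_mem _ _ (Submodule.subset_span ⟨i, rfl⟩)

theorem infinite_L2 : ¬ FiniteDimensional 𝕜 (L2 𝕜) := by
  intro hfd
  have hli : LinearIndependent 𝕜 (fun n : ℕ => (lp.single 2 n (1 : 𝕜) : L2 𝕜)) := by
    rw [linearIndependent_iff']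
    intro s g hg i hi
    have h1 := congrArg (fun z : L2 𝕜 => z i) hg
    simp only [lp.coeFn_sum, Finset.sum_apply, lp.coeFn_smul, Pi.smul_apply, lp.single_apply,
      smul_eq_mul, lp.coeFn_zero, Pi.zero_apply] at h1
    rw [Finset.sum_eq_single i] at h1
    · simpa using h1
    · intro j _ hji
      simp [Ne.symm hji]
    · intro h; exact absurd hi h
  have := hli.finite_of_isNoetherian
  exact not_finite ℕ

theorem sepQuot_L2 : SepQuot 𝕜 (L2 𝕜) :=
  SepQuot.of_separable infinite_L2 inferInstance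



/-- The Riesz product functions with prescribed Rademacher coefficients. -/
noncomputable def G (q : L2 𝕜) (N : ℕ) (ω : Fin N → Bool) : 𝕜 :=
  ((rp (fun j : Fin N => RCLike.re (q j)) ω : ℝ) : 𝕜) +
    ((rp (fun j : Fin N => RCLike.im (q j)) ω : ℝ) : 𝕜) * RCLike.I



theorem rad_add {N : ℕ} (f g : (Fin N → Bool) → 𝕜) (j : Fin N) :
    rad (fun ω => f ω + g ω) j = rad f j + rad g j := by
  simp only [rad, mul_add, Finset.sum_add_distrib, smul_add]








end T6aux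


end Crest.Agent.R114.V
end

-- ▼ part R114/HJ/L2
section

/-!
# R114 / HJ / L2 (helper777): a tree of functionals gives an `ℓ²` quotient
-/

set_option autoImplicit false

namespace Crest.Agent.R114.HJ

open Filter Topology Finset
open Crest.Agent.R114.V.T6aux (ulim tendsto_ulim ulim_add ulim_smul L2 sepQuot_L2 le_hyperfilter)

section
variable {𝕜 : Type*} [RCLike 𝕜]

theorem av_mul_le (n : ℕ) (f g : ℕ → ℝ) :
    av n (fun s => f s * g s) ≤ √(av n (fun s => f s ^ 2)) * √(av n (fun s => g s ^ 2)) := by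
  unfold av
  simp only [smul_eq_mul]
  have h0 : (0 : ℝ) ≤ ((2 : ℝ) ^ n)⁻¹ := by positivity
  rw [Real.sqrt_mul h0, Real.sqrt_mul h0]
  have h1 := Real.sum_mul_le_sqrt_mul_sqrt (range (2 ^ n)) f g
  have h2 : √(((2 : ℝ) ^ n)⁻¹) * √(((2 : ℝ) ^ n)⁻¹) = ((2 : ℝ) ^ n)⁻¹ := Real.mul_self_sqrt h0
  calc ((2 : ℝ) ^ n)⁻¹ * ∑ s ∈ range (2 ^ n), f s * g s
      ≤ ((2 : ℝ) ^ n)⁻¹ * (√(∑ s ∈ range (2 ^ n), f s ^ 2) * √(∑ s ∈ range (2 ^ n), g s ^ 2)) :=
        mul_le_mul_of_nonneg_left h1 h0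
    _ = (√(((2 : ℝ) ^ n)⁻¹) * √(((2 : ℝ) ^ n)⁻¹)) *
          (√(∑ s ∈ range (2 ^ n), f s ^ 2) * √(∑ s ∈ range (2 ^ n), g s ^ 2)) := by rw [h2]
    _ = _ := by ring

/-- the conjugated Rademacher sum -/
noncomputable def csum (m : ℕ) (y : ℕ → 𝕜) (s : ℕ) : 𝕜 :=
  ∑ i ∈ range m, rad i s • (starRingEnd 𝕜) (y i)

theorem csum_add {m k : ℕ} (h : m ≤ k) (y : ℕ → 𝕜) (s : ℕ) :
    csum m y (2 ^ k + s) = csum m y s := by
  unfold csum
  exact sum_congr rfl fun i hi => by rw [rad_add (lt_of_lt_of_le (mem_range.1 hi) h)]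

theorem re_csum (m : ℕ) (y : ℕ → 𝕜) (s : ℕ) :
    RCLike.re (csum m y s) = rsum m (fun i => RCLike.re (y i)) s := by
  unfold csum rsum
  rw [map_sum]
  refine sum_congr rfl fun i _ => ?_
  rw [RCLike.smul_re, RCLike.conj_re]; ring

theorem im_csum (m : ℕ) (y : ℕ → 𝕜) (s : ℕ) :
    RCLike.im (csum m y s) = - rsum m (fun i => RCLike.im (y i)) s := by
  unfold csum rsum
  rw [map_sum, ← sum_neg_distrib]
  refine sum_congr rfl fun i _ => ?_
  rw [RCLike.smul_im, RCLike.conj_im]; ring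

theorem av_csum_sq {m n : ℕ} (hmn : m ≤ n) (y : ℕ → 𝕜) :
    av n (fun s => ‖csum m y s‖ ^ 2) = ∑ i ∈ range m, ‖y i‖ ^ 2 := by
  have h1 : av n (fun s => ‖csum m y s‖ ^ 2) = av m (fun s => ‖csum m y s‖ ^ 2) :=
    av_stable (fun k hk s => by simp only [csum_add hk]) hmn
  rw [h1]
  have h2 : (fun s => ‖csum m y s‖ ^ 2) = fun s => rsum m (fun i => RCLike.re (y i)) s ^ 2 +
      rsum m (fun i => RCLike.im (y i)) s ^ 2 := by
    funext s
    rw [RCLike.norm_sq_eq_def, re_csum, im_csum]; ring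
  rw [h2, av_add, av_rsum_sq, av_rsum_sq, ← sum_add_distrib]
  refine sum_congr rfl fun i _ => ?_
  rw [RCLike.norm_sq_eq_def]; ring

theorem map_av {E F : Type*} [AddCommGroup E] [Module ℝ E] [AddCommGroup F] [Module ℝ F]
    (P : E →ₗ[ℝ] F) (n : ℕ) (f : ℕ → E) : P (av n f) = av n (fun s => P (f s)) := by
  unfold av
  rw [map_smul, map_sum]

/-- the main estimate -/
theorem tree_key (y : ℕ → 𝕜) {m n : ℕ} (hmn : m ≤ n) (a : ℕ → ℝ) (P : 𝕜 →ₗ[ℝ] ℝ)
    (hP : ∀ z, |P z| ≤ ‖z‖) (σ : ℝ) (hσ : |σ| = 1) (hPa : ∀ s, P (csum m y s) = σ * rsum m a s)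
    (c : ℕ) (hc : ∀ s, sgc m c s * rsum m a s = |rsum m a s|) {D : ℝ} (hD : 0 < D)
    (e : ℕ → 𝕜) (he : av n (fun s => ‖e s - ((D * sgc m c s : ℝ) : 𝕜)‖ ^ 2) ≤ D ^ 2 / 100) :
    D * (5 / 9 * √(∑ i ∈ range m, a i ^ 2) - 1 / 10 * √(∑ i ∈ range m, ‖y i‖ ^ 2)) ≤
      ‖∑ i ∈ range m, (starRingEnd 𝕜) (y i) * av n (fun s => rad i s • e s)‖ := by
  set Y : ℝ := √(∑ i ∈ range m, ‖y i‖ ^ 2) with hY
  have h1 : ∑ i ∈ range m, (starRingEnd 𝕜) (y i) * av n (fun s => rad i s • e s)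
      = av n (fun s => csum m y s * e s) := by
    have h2 : ∀ i ∈ range m, (starRingEnd 𝕜) (y i) * av n (fun s => rad i s • e s)
        = av n (fun s => (rad i s • (starRingEnd 𝕜) (y i)) * e s) := by
      intro i _
      unfold av
      rw [mul_smul_comm, mul_sum]
      congr 1
      refine sum_congr rfl fun s _ => ?_
      change (starRingEnd 𝕜) (y i) * (rad i s • e s) = (rad i s • (starRingEnd 𝕜) (y i)) * e s
      rw [mul_smul_comm, smul_mul_assoc]
    rw [sum_congr rfl h2, ← av_sum]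
    congr 1
    funext s
    rw [csum, sum_mul]
  have h3 : av n (fun s => csum m y s * e s)
      = av n (fun s => csum m y s * ((D * sgc m c s : ℝ) : 𝕜)) +
        av n (fun s => csum m y s * (e s - ((D * sgc m c s : ℝ) : 𝕜))) := by
    rw [← av_add]
    congr 1
    funext s
    ring
  have h4 : ‖av n (fun s => csum m y s * (e s - ((D * sgc m c s : ℝ) : 𝕜)))‖ ≤ Y * (D / 10) := by
    calc ‖av n (fun s => csum m y s * (e s - ((D * sgc m c s : ℝ) : 𝕜)))‖
        ≤ av n (fun s => ‖csum m y s‖ * ‖e s - ((D * sgc m c s : ℝ) : 𝕜)‖) := by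
          refine (norm_av_le n _).trans (le_of_eq ?_)
          congr 1
          funext s
          exact norm_mul _ _
      _ ≤ √(av n (fun s => ‖csum m y s‖ ^ 2)) *
            √(av n (fun s => ‖e s - ((D * sgc m c s : ℝ) : 𝕜)‖ ^ 2)) := av_mul_le n _ _
      _ ≤ Y * (D / 10) := by
          rw [av_csum_sq hmn]
          refine mul_le_mul_of_nonneg_left ?_ (Real.sqrt_nonneg _)
          rw [show D / 10 = √(D ^ 2 / 100) by
            rw [show D ^ 2 / 100 = (D / 10) ^ 2 by ring, Real.sqrt_sq (by positivity)]]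
          exact Real.sqrt_le_sqrt he
  have h5 : D * (5 / 9 * √(∑ i ∈ range m, a i ^ 2)) ≤
      ‖av n (fun s => csum m y s * ((D * sgc m c s : ℝ) : 𝕜))‖ := by
    have h6 : P (av n (fun s => csum m y s * ((D * sgc m c s : ℝ) : 𝕜)))
        = σ * (D * av n (fun s => |rsum m a s|)) := by
      rw [map_av]
      rw [← av_const_mul, ← av_const_mul]
      congr 1
      funext s
      rw [mul_comm (csum m y s), ← RCLike.real_smul_eq_coe_mul, map_smul, hPa, ← hc, smul_eq_mul]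
      ring
    have h7 := hP (av n (fun s => csum m y s * ((D * sgc m c s : ℝ) : 𝕜)))
    rw [h6, abs_mul, hσ, one_mul, abs_mul, abs_of_pos hD] at h7
    refine le_trans ?_ h7
    refine mul_le_mul_of_nonneg_left ?_ hD.le
    exact (khintchine hmn a).trans (le_abs_self _)
  rw [h1, h3]
  have h8 := norm_sub_le_norm_add (av n (fun s => csum m y s * ((D * sgc m c s : ℝ) : 𝕜)))
    (av n (fun s => csum m y s * (e s - ((D * sgc m c s : ℝ) : 𝕜))))
  nlinarith

/-- Rademacher coefficients of the restriction of `z` to the tree -/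
noncomputable def tco {X : Type*} [NormedAddCommGroup X] [NormedSpace 𝕜 X]
    (g : ℕ → X →L[𝕜] 𝕜) (τ : ℕ → ℕ → ℕ) (z : X) (n i : ℕ) : 𝕜 :=
  if i < n then av n (fun s => rad i s • g (τ n s) z) else 0

theorem sepQuot_of_tree {X : Type*} [NormedAddCommGroup X] [NormedSpace 𝕜 X] [CompleteSpace X]
    (g : ℕ → X →L[𝕜] 𝕜) (hg : ∀ k, ‖g k‖ ≤ 1) {D : ℝ} (hD : 0 < D)
    (x : ℕ → X) (hx : ∀ n, ‖x n‖ ≤ 1) (τ : ℕ → ℕ → ℕ)
    (h : ∀ j, ∀ᶠ n in atTop, av n (fun s => ‖g (τ n s) (x j) -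
      (D * sgc (Nat.unpair j).1 (Nat.unpair j).2 s : ℝ)‖ ^ 2) ≤ D ^ 2 / 100) : SepQuot 𝕜 X := by
  classical
  have hgz : ∀ k z, ‖g k z‖ ≤ ‖z‖ := fun k z =>
    ((g k).le_opNorm z).trans (mul_le_of_le_one_left (norm_nonneg _) (hg k))
  have hsum : ∀ (z : X) (n : ℕ) (J : Finset ℕ), ∑ i ∈ J, ‖tco g τ z n i‖ ^ 2 ≤ ‖z‖ ^ 2 := by
    intro z n J
    calc ∑ i ∈ J, ‖tco g τ z n i‖ ^ 2 = ∑ i ∈ J ∩ range n, ‖tco g τ z n i‖ ^ 2 := by
          symm
          refine sum_subset inter_subset_left fun j hj hj2 => ?_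
          have h2 : ¬ j < n := fun h => hj2 (mem_inter.mpr ⟨hj, mem_range.mpr h⟩)
          simp [tco, h2]
      _ ≤ ∑ i ∈ range n, ‖tco g τ z n i‖ ^ 2 :=
          sum_le_sum_of_subset_of_nonneg inter_subset_right fun _ _ _ => by positivity
      _ = ∑ i ∈ range n, ‖av n (fun s => rad i s • g (τ n s) z)‖ ^ 2 := by
          refine sum_congr rfl fun i hi => ?_
          rw [tco, if_pos (mem_range.1 hi)]
      _ ≤ av n (fun s => ‖g (τ n s) z‖ ^ 2) := bessel n _
      _ ≤ av n (fun _ => ‖z‖ ^ 2) := av_mono fun s _ => by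
          exact pow_le_pow_left₀ (norm_nonneg _) (hgz _ _) 2
      _ = ‖z‖ ^ 2 := av_const _ _
  have hcob : ∀ z n i, ‖tco g τ z n i‖ ≤ ‖z‖ := by
    intro z n i
    have h1 := hsum z n {i}
    rw [sum_singleton] at h1
    exact (sq_le_sq₀ (norm_nonneg _) (norm_nonneg _)).mp h1
  have hTsum : ∀ (z : X) (J : Finset ℕ),
      ∑ i ∈ J, ‖ulim (fun n => tco g τ z n i)‖ ^ 2 ≤ ‖z‖ ^ 2 := by
    intro z J
    have h1 : Tendsto (fun n => ∑ i ∈ J, ‖tco g τ z n i‖ ^ 2) (hyperfilter ℕ : Filter ℕ)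
        (𝓝 (∑ i ∈ J, ‖ulim (fun n => tco g τ z n i)‖ ^ 2)) :=
      tendsto_finsetSum _ fun i _ => ((tendsto_ulim fun n => hcob z n i).norm).pow 2
    exact le_of_tendsto h1 (Eventually.of_forall fun n => hsum z n J)
  have hmem : ∀ z : X, Memℓp (fun i => ulim (fun n => tco g τ z n i)) 2 := by
    intro z
    refine memℓp_gen' (C := ‖z‖ ^ 2) fun s => ?_
    simpa only [ENNReal.toReal_ofNat, Real.rpow_ofNat] using hTsum z s
  let T0 : X →ₗ[𝕜] L2 𝕜 :=
    { toFun := fun z => ⟨fun i => ulim (fun n => tco g τ z n i), hmem z⟩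
      map_add' := by
        intro z w
        ext i
        change ulim (fun n => tco g τ (z + w) n i) =
          ulim (fun n => tco g τ z n i) + ulim (fun n => tco g τ w n i)
        rw [← ulim_add (fun n => hcob z n i) (fun n => hcob w n i)]
        congr 1
        funext n
        unfold tco
        split_ifs
        · rw [← av_add]
          congr 1
          funext s
          rw [map_add, smul_add]
        · simp
      map_smul' := by
        intro a z
        ext i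
        change ulim (fun n => tco g τ (a • z) n i) = a * ulim (fun n => tco g τ z n i)
        rw [← ulim_smul a (fun n => hcob z n i)]
        congr 1
        funext n
        unfold tco
        split_ifs
        · unfold av
          rw [mul_smul_comm, mul_sum]
          congr 1
          refine sum_congr rfl fun s _ => ?_
          change rad i s • g (τ n s) (a • z) = a * rad i s • g (τ n s) z
          rw [map_smul, smul_eq_mul, mul_smul_comm]
        · simp }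
  let T : X →L[𝕜] L2 𝕜 := T0.mkContinuous 1 fun z => by
    rw [one_mul]
    refine lp.norm_le_of_forall_sum_le (by simp) (norm_nonneg _) fun s => ?_
    simp only [ENNReal.toReal_ofNat, Real.rpow_ofNat]
    exact hTsum z s
  have hTapp : ∀ z i, (T z : ℕ → 𝕜) i = ulim (fun n => tco g τ z n i) := fun z i => rfl
  -- the dense set of finitely supported vectors
  set S : Set (L2 𝕜) := {y | ∃ m, ∀ i, m ≤ i → y i = 0} with hS
  have hSd : Dense S := by
    intro z
    have h2 := lp.hasSum_single (p := 2) (by norm_num) z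
    refine mem_closure_of_tendsto h2 (Eventually.of_forall fun s => ?_)
    obtain ⟨m, hm⟩ : ∃ m, ∀ i ∈ s, i < m := ⟨s.sup id + 1, fun i hi =>
      Nat.lt_succ_of_le (Finset.le_sup (f := id) hi)⟩
    refine ⟨m, fun i hi => ?_⟩
    rw [lp.coeFn_sum, Finset.sum_apply]
    refine Finset.sum_eq_zero fun j hj => ?_
    have : i ≠ j := fun h => absurd (hm j hj) (by omega)
    rw [lp.single_apply]
    simp [this]
  have hsurj : Function.Surjective T := by
    refine surjective_of_dual_bound_dense T (c := D / 4) (by positivity)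
      (D := (InnerProductSpace.toDual 𝕜 (L2 𝕜)) '' S) ?_ ?_
    · exact (InnerProductSpace.toDual 𝕜 (L2 𝕜)).surjective.denseRange.dense_image
        (InnerProductSpace.toDual 𝕜 (L2 𝕜)).continuous hSd
    · rintro _ ⟨y, ⟨m, hm⟩, rfl⟩
      rw [LinearIsometryEquiv.norm_map]
      -- the norm of `y`
      have hynorm : ‖y‖ ^ 2 = ∑ i ∈ range m, ‖y i‖ ^ 2 := by
        have h1 := lp.norm_rpow_eq_tsum (p := 2) (by simp) y
        simp only [ENNReal.toReal_ofNat, Real.rpow_ofNat] at h1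
        rw [h1]
        refine tsum_eq_sum fun i hi => ?_
        rw [hm i (by simpa using hi)]
        simp
      have hysqrt : √(∑ i ∈ range m, ‖y i‖ ^ 2) = ‖y‖ := by
        rw [← hynorm, Real.sqrt_sq (norm_nonneg _)]
      have hinner : ∀ j, ((InnerProductSpace.toDual 𝕜 (L2 𝕜)) y) (T (x j)) =
          ∑ i ∈ range m, (starRingEnd 𝕜) (y i) * ulim (fun n => tco g τ (x j) n i) := by
        intro j
        rw [InnerProductSpace.toDual_apply_apply, lp.inner_eq_tsum]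
        rw [tsum_eq_sum (s := range m)]
        · refine sum_congr rfl fun i _ => ?_
          rw [hTapp, RCLike.inner_apply, mul_comm]
        · intro i hi
          rw [hm i (by simpa using hi)]
          simp
      have hgen : ∀ (a : ℕ → ℝ) (P : 𝕜 →ₗ[ℝ] ℝ) (_ : ∀ z, |P z| ≤ ‖z‖) (σ : ℝ) (_ : |σ| = 1)
          (_ : ∀ s, P (csum m (fun i => y i) s) = σ * rsum m a s)
          (_ : ‖y‖ ^ 2 / 2 ≤ ∑ i ∈ range m, a i ^ 2),
          D / 4 * ‖y‖ ≤ ‖((InnerProductSpace.toDual 𝕜 (L2 𝕜)) y).comp T‖ := by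
        intro a P hP σ hσ hPa ha
        obtain ⟨c, hc⟩ := exists_sgc m a
        set j := Nat.pair m c with hj
        have h1 : D * (5 / 9 * √(∑ i ∈ range m, a i ^ 2) - 1 / 10 * ‖y‖) ≤
            ‖((InnerProductSpace.toDual 𝕜 (L2 𝕜)) y) (T (x j))‖ := by
          rw [hinner]
          have h2 : Tendsto (fun n => ‖∑ i ∈ range m, (starRingEnd 𝕜) (y i) * tco g τ (x j) n i‖)
              (hyperfilter ℕ : Filter ℕ) (𝓝 ‖∑ i ∈ range m, (starRingEnd 𝕜) (y i) *
                ulim (fun n => tco g τ (x j) n i)‖) :=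
            (tendsto_finsetSum _ fun i _ =>
              (tendsto_ulim fun n => hcob (x j) n i).const_mul _).norm
          refine ge_of_tendsto h2 (le_hyperfilter ?_)
          filter_upwards [h j, eventually_ge_atTop m] with n hn hmn
          have h3 := tree_key (fun i => (y i : 𝕜)) hmn a P hP σ hσ hPa c hc hD
            (fun s => g (τ n s) (x j)) (by
              have := hn
              rw [hj, Nat.unpair_pair] at this
              exact this)
          rw [hysqrt] at h3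
          refine h3.trans (le_of_eq ?_)
          congr 1
          refine sum_congr rfl fun i hi => ?_
          rw [tco, if_pos (lt_of_lt_of_le (mem_range.1 hi) hmn)]
        have h4 : ‖((InnerProductSpace.toDual 𝕜 (L2 𝕜)) y) (T (x j))‖ ≤
            ‖((InnerProductSpace.toDual 𝕜 (L2 𝕜)) y).comp T‖ := by
          have h5 := (((InnerProductSpace.toDual 𝕜 (L2 𝕜)) y).comp T).le_opNorm (x j)
          exact h5.trans (mul_le_of_le_one_right (norm_nonneg _) (hx j))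
        refine le_trans ?_ (h1.trans h4)
        have h6 : 7 / 10 * ‖y‖ ≤ √(∑ i ∈ range m, a i ^ 2) := by
          apply Real.le_sqrt_of_sq_le
          nlinarith [sq_nonneg ‖y‖]
        have h7 : 1 / 4 * ‖y‖ ≤ 5 / 9 * √(∑ i ∈ range m, a i ^ 2) - 1 / 10 * ‖y‖ := by
          nlinarith [norm_nonneg y]
        calc D / 4 * ‖y‖ = D * (1 / 4 * ‖y‖) := by ring
          _ ≤ _ := mul_le_mul_of_nonneg_left h7 hD.le
      have hsplit : (∑ i ∈ range m, RCLike.re (y i) ^ 2) + (∑ i ∈ range m, RCLike.im (y i) ^ 2)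
          = ‖y‖ ^ 2 := by
        rw [hynorm, ← sum_add_distrib]
        refine sum_congr rfl fun i _ => ?_
        rw [RCLike.norm_sq_eq_def]; ring
      rcases le_total (‖y‖ ^ 2 / 2) (∑ i ∈ range m, RCLike.re (y i) ^ 2) with hA | hA
      · refine hgen (fun i => RCLike.re (y i)) RCLike.reLm (fun z => RCLike.abs_re_le_norm z) 1
          (by simp) (fun s => ?_) hA
        rw [one_mul]
        exact re_csum m _ s
      · refine hgen (fun i => RCLike.im (y i)) RCLike.imLm (fun z => RCLike.abs_im_le_norm z) (-1)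
          (by simp) (fun s => ?_) (by linarith)
        rw [neg_one_mul]
        exact im_csum m _ s
  exact SepQuot.of_surjective T hsurj sepQuot_L2

end

end Crest.Agent.R114.HJ
end

-- ▼ part R114/HJ/Main

/-!
# R114 / HJ / Main (helper935): `ℓ₁` in the dual gives a separable quotient
-/

set_option autoImplicit false

namespace Crest.Agent.R114.HJ

open Filter Topology
open Crest.Agent.R114.V.T5

universe u
variable {𝕜 : Type} [RCLike 𝕜] {X : Type u} [NormedAddCommGroup X] [NormedSpace 𝕜 X]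

theorem comb_of_inj (d : ℕ → X →L[𝕜] 𝕜) {a b N : ℕ} {t : ℕ → ℕ}
    (hinj : ∀ s < N, ∀ s' < N, t s = t s' → s = s') (hmem : ∀ s < N, t s ∈ Finset.Ico a b)
    {w : ℕ → 𝕜} (hw : ∑ s ∈ Finset.range N, ‖w s‖ = 1) :
    Comb d a b (∑ s ∈ Finset.range N, w s • d (t s)) := by
  classical
  set c : ℕ → 𝕜 := fun i => ∑ s ∈ Finset.range N, if t s = i then w s else 0 with hc
  have hc1 : ∀ s ∈ Finset.range N, c (t s) = w s := by
    intro s hs
    simp only [hc]
    rw [Finset.sum_eq_single s]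
    · rw [if_pos rfl]
    · intro s' hs' hne
      rw [if_neg]
      intro he
      exact hne (hinj s' (Finset.mem_range.1 hs') s (Finset.mem_range.1 hs) he)
    · intro h; exact absurd hs h
  have hc2 : ∀ i, i ∉ (Finset.range N).image t → c i = 0 := by
    intro i hi
    simp only [hc]
    refine Finset.sum_eq_zero fun s hs => ?_
    rw [if_neg]
    rintro rfl
    exact hi (Finset.mem_image_of_mem _ hs)
  have hsub : (Finset.range N).image t ⊆ Finset.Ico a b := by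
    intro i hi
    obtain ⟨s, hs, rfl⟩ := Finset.mem_image.1 hi
    exact hmem s (Finset.mem_range.1 hs)
  have hinj' : Set.InjOn t (Finset.range N : Set ℕ) := by
    intro s hs s' hs' he
    exact hinj s (Finset.mem_range.1 hs) s' (Finset.mem_range.1 hs') he
  refine ⟨c, ?_, ?_⟩
  · rw [← hw, ← Finset.sum_subset hsub (fun i _ hi => by rw [hc2 i hi, norm_zero]),
      Finset.sum_image hinj']
    exact Finset.sum_congr rfl fun s hs => by rw [hc1 s hs]
  · rw [← Finset.sum_subset hsub (fun i _ hi => by rw [hc2 i hi]; exact zero_smul 𝕜 (d i)),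
      Finset.sum_image hinj']
    exact Finset.sum_congr rfl fun s hs => by rw [hc1 s hs]

theorem Blk.lower {g d : ℕ → X →L[𝕜] 𝕜} {ρ : ℝ}
    (hl : ∀ (F : Finset ℕ) (c : ℕ → 𝕜), ρ * ∑ k ∈ F, ‖c k‖ ≤ ‖∑ k ∈ F, c k • g k‖)
    (hB : Blk g d) (F : Finset ℕ) (c : ℕ → 𝕜) :
    ρ * ∑ k ∈ F, ‖c k‖ ≤ ‖∑ k ∈ F, c k • d k‖ := by
  classical
  obtain ⟨m, hm, H⟩ := hB
  set S : ℝ := ∑ k ∈ F, ‖c k‖ with hS
  have hS0 : 0 ≤ S := Finset.sum_nonneg fun _ _ => norm_nonneg _
  rcases eq_or_lt_of_le hS0 with h0 | hpos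
  · rw [← h0, mul_zero]; exact norm_nonneg _
  obtain ⟨N, hN⟩ : ∃ N, ∀ k ∈ F, k < N := ⟨F.sup id + 1, fun k hk =>
    Nat.lt_succ_of_le (Finset.le_sup (f := id) hk)⟩
  have hsub : F ⊆ Finset.Ico 0 N := fun k hk => Finset.mem_Ico.2 ⟨Nat.zero_le _, hN k hk⟩
  have hcomb : Comb d 0 N ((S : 𝕜)⁻¹ • ∑ k ∈ F, c k • d k) := by
    refine ⟨fun k => if k ∈ F then (S : 𝕜)⁻¹ * c k else 0, ?_, ?_⟩
    · rw [← Finset.sum_subset hsub (fun i _ hi => by simp only [if_neg hi, norm_zero])]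
      calc ∑ k ∈ F, ‖if k ∈ F then (S : 𝕜)⁻¹ * c k else 0‖ = ∑ k ∈ F, S⁻¹ * ‖c k‖ := by
            refine Finset.sum_congr rfl fun k hk => ?_
            rw [if_pos hk, norm_mul, norm_inv, RCLike.norm_ofReal, abs_of_pos hpos]
        _ = 1 := by rw [← Finset.mul_sum, ← hS, inv_mul_cancel₀ hpos.ne']
    · rw [← Finset.sum_subset hsub (fun i _ hi => by
        simp only [if_neg hi]; exact zero_smul 𝕜 (d i)), Finset.smul_sum]
      refine Finset.sum_congr rfl fun k hk => ?_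
      simp only [if_pos hk]
      exact smul_smul _ _ _
  obtain ⟨e, he1, he2⟩ := Comb.trans hm.monotone H hcomb
  have h1 := hl (Finset.Ico (m 0) (m N)) e
  rw [he1, ← he2, norm_smul, norm_inv, RCLike.norm_ofReal, abs_of_pos hpos, mul_one] at h1
  calc ρ * S ≤ (S⁻¹ * ‖∑ k ∈ F, c k • d k‖) * S := by gcongr
    _ = _ := by field_simp

/-- The signed averages over tuples form a block sequence. -/
theorem blk_of_tup (d : ℕ → X →L[𝕜] 𝕜) {n : ℕ} {T : ℕ → ℕ → ℕ} (hT : Tup n T) {F : ℕ → ℝ}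
    (hF : ∀ s, |F s| = 1) :
    Blk d (fun k => ∑ s ∈ Finset.range (2 ^ n), ((((2 : ℝ) ^ n)⁻¹ * F s : ℝ) : 𝕜) • d (T k s)) := by
  have hne : (Finset.range (2 ^ n)).Nonempty := ⟨0, Finset.mem_range.2 (by positivity)⟩
  refine ⟨fun k => (Finset.range (2 ^ n)).inf' hne (T k), ?_, ?_⟩
  · intro k k' hk
    obtain ⟨s', hs', he⟩ := Finset.exists_mem_eq_inf' hne (T k')
    simp only
    rw [he]
    refine lt_of_le_of_lt (Finset.inf'_le _ hs') ?_
    exact hT.2 k k' hk s' (Finset.mem_range.1 hs') s' (Finset.mem_range.1 hs')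
  · intro k
    refine comb_of_inj d (hT.1 k) ?_ ?_
    · intro s hs
      rw [Finset.mem_Ico]
      refine ⟨Finset.inf'_le _ (Finset.mem_range.2 hs), ?_⟩
      rw [Finset.lt_inf'_iff]
      intro s' hs'
      exact hT.2 k (k + 1) (Nat.lt_succ_self k) s hs s' (Finset.mem_range.1 hs')
    · have : ∀ s ∈ Finset.range (2 ^ n), ‖((((2 : ℝ) ^ n)⁻¹ * F s : ℝ) : 𝕜)‖ = ((2 : ℝ) ^ n)⁻¹ := by
        intro s _
        rw [RCLike.norm_ofReal, abs_mul, hF, mul_one, abs_of_pos (by positivity)]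
      rw [Finset.sum_congr rfl this, Finset.sum_const, Finset.card_range, nsmul_eq_mul]
      push_cast
      exact mul_inv_cancel₀ (by positivity)

/-- **Theorem HJ** (after Hagler and Johnson). -/
theorem sepQuot_of_l1_dual [CompleteSpace X] (g : ℕ → X →L[𝕜] 𝕜) (hg : ∀ k, ‖g k‖ ≤ 1)
    {ρ : ℝ} (hρ : 0 < ρ)
    (hl : ∀ (F : Finset ℕ) (c : ℕ → 𝕜), ρ * ∑ k ∈ F, ‖c k‖ ≤ ‖∑ k ∈ F, c k • g k‖) :
    SepQuot 𝕜 X := by
  obtain ⟨d, hB, hst⟩ := exists_stable g 1 hg
  have hd : ∀ k, ‖d k‖ ≤ 1 := hB.norm_le hg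
  have hdl := Blk.lower hl hB
  by_cases hR : ∀ ε > 0, R d ε
  · -- weak* null
    refine sepQuot_of_null d hd hρ hdl fun x => ?_
    rw [Metric.tendsto_atTop]
    intro ε hε
    have hx0 : 0 < ‖x‖ + 1 := by positivity
    have h1 := hR (ε / 2 / (‖x‖ + 1)) (by positivity) (((‖x‖ + 1 : ℝ) : 𝕜)⁻¹ • x) (by
      rw [norm_smul, norm_inv, RCLike.norm_ofReal, abs_of_pos hx0, inv_mul_le_iff₀ hx0]
      linarith)
    obtain ⟨N, hN⟩ := eventually_atTop.1 h1
    refine ⟨N, fun k hk => ?_⟩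
    have h2 := hN k hk
    rw [map_smul, norm_smul, norm_inv, RCLike.norm_ofReal, abs_of_pos hx0,
      inv_mul_le_iff₀ hx0, mul_div_cancel₀ _ hx0.ne'] at h2
    rw [dist_zero_right]
    linarith
  · push Not at hR
    obtain ⟨ε₀, hε₀, hnR⟩ := hR
    set S : Set ℝ := {r | 0 ≤ r ∧ R d r} with hS
    have hSbdd : BddBelow S := ⟨0, fun r hr => hr.1⟩
    have hSne : S.Nonempty := ⟨1, zero_le_one, fun x hx => Eventually.of_forall fun k => by
      calc ‖d k x‖ ≤ ‖d k‖ * ‖x‖ := (d k).le_opNorm x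
        _ ≤ 1 * 1 := mul_le_mul (hd k) hx (norm_nonneg _) zero_le_one
        _ = 1 := mul_one 1⟩
    have hD : 0 < sInf S := by
      refine lt_of_lt_of_le hε₀ (le_csInf hSne fun r hr => ?_)
      by_contra hcon
      exact hnR (hr.2.mono (not_le.1 hcon).le)
    obtain ⟨x, τ, hx, hτ⟩ := exists_tree d hD (fun ε hε x hx => by
      obtain ⟨r, hr, hr2⟩ := exists_lt_of_csInf_lt hSne (lt_add_of_pos_right (sInf S) hε)
      exact (hr.2.mono hr2.le) x hx) (fun n T hT F hF r hr => by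
      by_contra hcon
      push Not at hcon
      have hRh : R (fun k => ∑ s ∈ Finset.range (2 ^ n),
          ((((2 : ℝ) ^ n)⁻¹ * F s : ℝ) : 𝕜) • d (T k s)) (max r 0) := by
        intro x hx
        have h1 := hcon x hx
        filter_upwards [h1] with k hk
        refine le_trans (le_of_eq ?_) (hk.trans (le_max_left _ _))
        congr 1
        unfold av
        rw [ContinuousLinearMap.sum_apply, Finset.smul_sum]
        refine Finset.sum_congr rfl fun s _ => ?_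
        rw [smul_smul, ContinuousLinearMap.smul_apply, smul_eq_mul, RCLike.real_smul_eq_coe_mul]
      have hmax : max r 0 < sInf S := max_lt hr hD
      have h2 := hst _ (blk_of_tup d hT hF) (max r 0) (le_max_right _ _) hRh
        ((sInf S - max r 0) / 2) (by linarith)
      have h3 : sInf S ≤ max r 0 + (sInf S - max r 0) / 2 :=
        csInf_le hSbdd ⟨by linarith [le_max_right r 0], h2⟩
      linarith)
    exact sepQuot_of_tree d hd hD x hx τ hτ

end Crest.Agent.R114.HJ
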